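import Vale.Agent.P052.Bdl.B1
import Vale.Agent.P052.H342.StarCover
import Vale.Agent.P052.H342.CoreMain

namespace Vale.Agent.Results.P052.AllFrom63AndCore

open Vale.Agent.P052

/-- (1) For every `d ≥ 63` there is a finite set in `d`-dimensional Euclidean space whose Borsuk
number is at least `d + 2`; in particular Borsuk's conjecture fails in every dimension `d ≥ 63`.
In every dimension `d` (two points of a set are far if their distance is its diameter):
(2) if `k ≥ d + 1` and the points of the closure of `X` with two or more far points are covered by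
`k` sets of smaller diameter, then `X` is a union of `k` sets of smaller diameter;
(3) `b(X) ≤ d + 1` if for every `x` in the closure of `X` at most one of the points far from `x`
is far from a second point;
(4) Borsuk's conjecture in dimension `d` holds iff it holds for the compact sets in which the points
having at least two far points are dense. -/
theorem result :
    (∀ d : ℕ, 63 ≤ d →
      (∃ Y : Set (EuclideanSpace ℝ (Fin d)), Y.Finite ∧ 0 < Metric.diam Y ∧
        d + 2 ≤ borsukNumber Y) ∧ ¬ BorsukConjecture d) ∧
    (∀ d k : ℕ, d + 1 ≤ k → ∀ X : Set (EuclideanSpace ℝ (Fin d)), Bornology.IsBounded X →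
      0 < Metric.diam X → ∀ P : Fin k → Set (EuclideanSpace ℝ (Fin d)),
      (∀ i, Bornology.IsBounded (P i)) → (∀ i, Metric.diam (P i) < Metric.diam X) →
      (∀ x ∈ closure X, ∀ y ∈ closure X, ∀ z ∈ closure X, y ≠ z → dist x y = Metric.diam X →
        dist x z = Metric.diam X → x ∈ ⋃ i, P i) →
      IsSmallerCover X k) ∧
    (∀ (d : ℕ) (X : Set (EuclideanSpace ℝ (Fin d))), Bornology.IsBounded X →
      0 < Metric.diam X →
      (∀ x ∈ closure X, ∀ y ∈ closure X, ∀ y' ∈ closure X,
        dist x y = Metric.diam X → dist x y' = Metric.diam X → y ≠ y' →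
        (∀ z ∈ closure X, dist y z = Metric.diam X → z = x) ∨
        (∀ z ∈ closure X, dist y' z = Metric.diam X → z = x)) →
      borsukNumber X ≤ d + 1) ∧
    (∀ d : ℕ, BorsukConjecture d ↔
      ∀ M : Set (EuclideanSpace ℝ (Fin d)), IsCompact M → 0 < Metric.diam M →
        (∀ V : Set (EuclideanSpace ℝ (Fin d)), IsOpen V → (M ∩ V).Nonempty →
          ∃ x ∈ M ∩ V, ∃ y ∈ M, ∃ z ∈ M, y ≠ z ∧
            dist x y = Metric.diam M ∧ dist x z = Metric.diam M) →
        borsukNumber M ≤ d + 1) := by
  refine ⟨fun d hd => ⟨exists_all d hd, not_conjecture_of_exists (exists_all d hd)⟩, ?_, ?_,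
    fun d => H342.main_equiv d⟩
  · intro d k hk X hX hD P hPb hPd hP
    exact H342.main_reduction d k hk X hX hD P hPb hPd hP
  · intro d X hX hD h
    exact Nat.sInf_le (H342.cover_of_star X hX hD h)

end Vale.Agent.Results.P052.AllFrom63AndCore
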