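import Vale.Agent.P052.H515.Fin

namespace Vale.Agent.Results.P052.ConstantFactor

open Vale.Agent.P052 Vale.Agent.P052.H515

/-- (1) Borsuk's conjecture fails in every dimension `d ≥ 63`. (2) It fails by a constant factor in
every dimension `d ≥ 65`. (3) An explicit lower bound in terms of `d + 1 = 66 a + 65 b + c`.
(4) Borsuk numbers of finite sets on spheres of radius smaller than `diam / √2` are
superadditive. -/
theorem result :
    (∀ d : ℕ, 63 ≤ d →
      (∃ Y : Set (EuclideanSpace ℝ (Fin d)), Y.Finite ∧ 0 < Metric.diam Y ∧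
        d + 2 ≤ borsukNumber Y) ∧ ¬ BorsukConjecture d) ∧
    (∀ d : ℕ, 65 ≤ d →
      ∃ Y : Set (EuclideanSpace ℝ (Fin d)), OnSmallSphere Y ∧
        (113 / 100 : ℝ) * (d + 1) ≤ borsukNumber Y ∧
        (14 / 11 : ℝ) * (d + 1) - 18 ≤ borsukNumber Y) ∧
    (∀ a b c d : ℕ, 1 ≤ a + b → d + 1 = 66 * a + 65 * b + c →
      ∃ Y : Set (EuclideanSpace ℝ (Fin d)), OnSmallSphere Y ∧
        84 * a + 71 * b + c ≤ borsukNumber Y) ∧
    (∀ (d₁ d₂ : ℕ) (Y₁ : Set (EuclideanSpace ℝ (Fin d₁)))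
      (Y₂ : Set (EuclideanSpace ℝ (Fin d₂))), OnSmallSphere Y₁ → OnSmallSphere Y₂ →
      ∃ Y : Set (EuclideanSpace ℝ (Fin (d₁ + d₂ + 1))), OnSmallSphere Y ∧
        borsukNumber Y₁ + borsukNumber Y₂ ≤ borsukNumber Y) :=
  ⟨fun d hd => ⟨exists_all d hd, not_conjecture_of_exists (exists_all d hd)⟩,
    main3, main2, fun _ _ => superadditive⟩

end Vale.Agent.Results.P052.ConstantFactor
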