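import Vale.Agent.P052.H342.StarCover

namespace Vale.Agent.Results.P052.DoubleStars

open Vale.Agent.P052

/-- Let `X` be bounded of positive diameter `D` in `d`-dimensional Euclidean space and let `K` be
its closure. Two points at distance `D` are called far.
(1) If `q` is continuous on `K` with values in a Hausdorff space, identifies any two points of `K`
far from a common point of `K`, and if over every point the far vectors `x' - y'` lie in an open
half-space, then `X` is a union of `d + 1` subsets of smaller diameter.
(2) The same conclusion holds if for every `x` in `K` at most one of the points of `K` far from `x`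
is far from a second point of `K`. -/
theorem result (d : ℕ) (X : Set (EuclideanSpace ℝ (Fin d))) (hX : Bornology.IsBounded X)
    (hD : 0 < Metric.diam X) :
    (∀ (T : Type) [TopologicalSpace T] [T2Space T] (q : EuclideanSpace ℝ (Fin d) → T),
      ContinuousOn q (closure X) →
      (∀ x ∈ closure X, ∀ y ∈ closure X, ∀ y' ∈ closure X,
        dist x y = Metric.diam X → dist x y' = Metric.diam X → q y = q y') →
      (∀ x ∈ closure X, ∃ p : EuclideanSpace ℝ (Fin d), ∀ x' ∈ closure X, ∀ y' ∈ closure X,
        q x' = q x → dist x' y' = Metric.diam X → 0 < inner ℝ p (x' - y')) →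
      IsSmallerCover X (d + 1) ∧ borsukNumber X ≤ d + 1) ∧
    ((∀ x ∈ closure X, ∀ y ∈ closure X, ∀ y' ∈ closure X,
        dist x y = Metric.diam X → dist x y' = Metric.diam X → y ≠ y' →
        (∀ z ∈ closure X, dist y z = Metric.diam X → z = x) ∨
        (∀ z ∈ closure X, dist y' z = Metric.diam X → z = x)) →
      IsSmallerCover X (d + 1) ∧ borsukNumber X ≤ d + 1) := by
  refine ⟨fun T _ _ q hq hc hp => ?_, fun h => ?_⟩
  · have h1 := H342.cover_of_quotient X hX hD q hq hc hp
    exact ⟨h1, Nat.sInf_le h1⟩
  · have h1 := H342.cover_of_star X hX hD h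
    exact ⟨h1, Nat.sInf_le h1⟩

end Vale.Agent.Results.P052.DoubleStars
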