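import Vale.Agent.P052.H342.CoreMain

namespace Vale.Agent.Results.P052.SingularCore

open Vale.Agent.P052 MeasureTheory

/-- Two points of a set at distance equal to its diameter are called far.
(1) `X` bounded with closure `K`, `D = diam X > 0`, `k ≥ 1`: if `S ∩ K` is covered by `k` sets of
diameter less than `D` and, for `1 ≤ r ≤ k`, the set of `r`-tuples of distinct points of `K` having
a common far point in `K` outside `S` has Hausdorff measure zero in dimension `k - r`, then `X` is
a union of `k` sets of smaller diameter.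
(2) If `k ≥ d + 1` and the points of `K` having two or more far points are covered by `k` sets of
diameter less than `D`, then `X` is a union of `k` sets of smaller diameter.
(3) If `k ≥ d + 1` and `X` is not a union of `k` sets of smaller diameter, then `K` contains a
compact set `M` of the same diameter with the same property, all of whose proper closed subsets are
unions of `k` sets of diameter less than `D`, and such that for every open `V` meeting `M` there is
`2 ≤ r ≤ k` for which the `r`-tuples of distinct points of `M` having a common far point in `M ∩ V`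
have positive Hausdorff measure in dimension `k - r`.
(4) Borsuk's conjecture in dimension `d` holds iff it holds for the compact sets `M` in which the
points having at least two far points are dense. -/
theorem result (d : ℕ) :
    (∀ k : ℕ, 1 ≤ k → ∀ X : Set (EuclideanSpace ℝ (Fin d)), Bornology.IsBounded X →
      0 < Metric.diam X → ∀ (S : Set (EuclideanSpace ℝ (Fin d)))
      (P : Fin k → Set (EuclideanSpace ℝ (Fin d))),
      (∀ i, Bornology.IsBounded (P i)) → (∀ i, Metric.diam (P i) < Metric.diam X) →
      S ∩ closure X ⊆ ⋃ i, P i →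
      (∀ r : ℕ, 1 ≤ r → r ≤ k →
        μH[(k : ℝ) - r] {y : Fin r → EuclideanSpace ℝ (Fin d) | Function.Injective y ∧
          (∀ l, y l ∈ closure X) ∧
          ∃ x ∈ closure X, x ∉ S ∧ ∀ l, dist x (y l) = Metric.diam X} = 0) →
      IsSmallerCover X k) ∧
    (∀ k : ℕ, d + 1 ≤ k → ∀ X : Set (EuclideanSpace ℝ (Fin d)), Bornology.IsBounded X →
      0 < Metric.diam X → ∀ P : Fin k → Set (EuclideanSpace ℝ (Fin d)),
      (∀ i, Bornology.IsBounded (P i)) → (∀ i, Metric.diam (P i) < Metric.diam X) →
      (∀ x ∈ closure X, ∀ y ∈ closure X, ∀ z ∈ closure X, y ≠ z → dist x y = Metric.diam X →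
        dist x z = Metric.diam X → x ∈ ⋃ i, P i) →
      IsSmallerCover X k) ∧
    (∀ k : ℕ, d + 1 ≤ k → ∀ X : Set (EuclideanSpace ℝ (Fin d)), Bornology.IsBounded X →
      0 < Metric.diam X → ¬ IsSmallerCover X k →
      ∃ M : Set (EuclideanSpace ℝ (Fin d)), IsCompact M ∧ M ⊆ closure X ∧
        Metric.diam M = Metric.diam X ∧ ¬ IsSmallerCover M k ∧
        (∀ L : Set (EuclideanSpace ℝ (Fin d)), IsClosed L → L ⊆ M → L ≠ M →
          ∃ P : Fin k → Set (EuclideanSpace ℝ (Fin d)),
            (⋃ i, P i) = L ∧ ∀ i, Metric.diam (P i) < Metric.diam M) ∧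
        ∀ V : Set (EuclideanSpace ℝ (Fin d)), IsOpen V → (M ∩ V).Nonempty →
          ∃ r : ℕ, 2 ≤ r ∧ r ≤ k ∧
            0 < μH[(k : ℝ) - r] {y : Fin r → EuclideanSpace ℝ (Fin d) |
              Function.Injective y ∧ (∀ l, y l ∈ M) ∧
              ∃ x ∈ M ∩ V, ∀ l, dist x (y l) = Metric.diam M}) ∧
    (BorsukConjecture d ↔
      ∀ M : Set (EuclideanSpace ℝ (Fin d)), IsCompact M → 0 < Metric.diam M →
        (∀ V : Set (EuclideanSpace ℝ (Fin d)), IsOpen V → (M ∩ V).Nonempty →
          ∃ x ∈ M ∩ V, ∃ y ∈ M, ∃ z ∈ M, y ≠ z ∧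
            dist x y = Metric.diam M ∧ dist x z = Metric.diam M) →
        borsukNumber M ≤ d + 1) := by
  refine ⟨?_, ?_, ?_, H342.main_equiv d⟩
  · intro k hk X hX hD S P hPb hPd hP hZ
    exact H342.main_greedy d k hk X hX hD S P hPb hPd hP hZ
  · intro k hk X hX hD P hPb hPd hP
    exact H342.main_reduction d k hk X hX hD P hPb hPd hP
  · intro k hk X hX hD h
    exact H342.main_critical d k hk X hX hD h

end Vale.Agent.Results.P052.SingularCore
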